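import Vale.Agent.P334.MathlibUsed
import Vale.Agent.P334.Alg.P1.Inst
import Vale.Agent.P334.Bdl.B7

/-!
Metric k-median with rational distances in binary has a randomized polynomial-time approximation
algorithm with the factor 2 - 10^(-28): on every instance it always returns a nonempty set of at
most k facilities, and the expected cost is at most (2 - 10^(-28)) times the optimum.
-/

namespace Vale.Agent.Results.P334.BelowTwo

open Vale.Agent.P334.Final

theorem result :
    ∃ (A : Input → List ℕ) (T : Polynomial ℕ),
      (∃ M : Turing.TM2ComputableInPolyTime Input.code (codeList Nat.bits) A,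
        ∀ k, Finite (M.tm.Γ k)) ∧
      ∀ I : Inst, I.Valid →
        (∀ r : Fin (T.eval I.code.length) → Bool, I.Feasible (A ⟨I, List.ofFn r⟩).toFinset) ∧
        ∀ S, I.Feasible S →
          (∑ r : Fin (T.eval I.code.length) → Bool, I.cost (A ⟨I, List.ofFn r⟩).toFinset) /
            2 ^ (T.eval I.code.length) ≤ (2 - 1 / 10 ^ 28) * I.cost S :=
  Vale.Agent.P334.Alg.closed

end Vale.Agent.Results.P334.BelowTwo
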